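import Vale.Agent.P368.Rf

namespace Vale.Agent.P368

open Matrix

noncomputable def chi {n : ℕ} (x : Fin n → Bool) : ℂ := if par x then -1 else 1

theorem prod_half {n : ℕ} (x : Fin n → Bool) :
    ∏ i, (if x i = true then -(1 / 2 : ℂ) else 1 / 2) = chi x / 2 ^ n := by
  rw [Finset.prod_ite, Finset.prod_const, Finset.prod_const]
  have hsplit := Finset.card_filter_add_card_filter_not (s := (Finset.univ : Finset (Fin n)))
    (fun i => x i = true)
  rw [Finset.card_univ, Fintype.card_fin] at hsplit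
  set a := (Finset.univ.filter fun i => x i = true).card with ha
  set b := (Finset.univ.filter fun i => ¬ x i = true).card with hb
  have hchi : chi x = (-1) ^ a := by
    unfold chi par
    rw [← ha]
    by_cases hodd : Odd a
    · simp [hodd, hodd.neg_one_pow]
    · have heven : Even a := Nat.not_odd_iff_even.mp hodd
      simp [hodd, heven.neg_one_pow]
  rw [hchi, ← hsplit, pow_add]
  have : (-(1 / 2 : ℂ)) ^ a = (-1) ^ a * (1 / 2) ^ a := by
    rw [← mul_pow]; norm_num
  rw [this]
  have h2 : ((1 / 2 : ℂ)) ^ a * 2 ^ a = 1 := by rw [← mul_pow]; norm_num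
  have h3 : ((1 / 2 : ℂ)) ^ b * 2 ^ b = 1 := by rw [← mul_pow]; norm_num
  have h4 : (2 : ℂ) ^ a * 2 ^ b ≠ 0 :=
    mul_ne_zero (pow_ne_zero _ two_ne_zero) (pow_ne_zero _ two_ne_zero)
  rw [eq_div_iff h4]
  calc (-1 : ℂ) ^ a * (1 / 2) ^ a * (1 / 2) ^ b * (2 ^ a * 2 ^ b)
      = (-1 : ℂ) ^ a * ((1 / 2) ^ a * 2 ^ a) * ((1 / 2) ^ b * 2 ^ b) := by ring
    _ = (-1) ^ a := by rw [h2, h3]; ring

noncomputable def dd (n : ℕ) {N : ℕ} (j : Fin N) (b : Bool) : ℂ :=
  if j.1 < n then (if b then -(1 / 2) else 1 / 2) else (if b then 0 else 1)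

theorem rho_eq (n : ℕ) {N : ℕ} : (rho n : Fin N → M2) = fun j => Matrix.diagonal (dd n j) := by
  funext j
  unfold rho dd
  split_ifs <;> rfl

theorem initCfg_injective {n N : ℕ} (hnN : n ≤ N) :
    Function.Injective (initCfg : (Fin n → Bool) → Cfg N) := by
  intro x y hxy
  funext i
  have := congrFun hxy ⟨i.1, lt_of_lt_of_le i.2 hnN⟩
  simpa [initCfg] using this

theorem dd_init {n N : ℕ} (hnN : n ≤ N) (x : Fin n → Bool) :
    ∏ j : Fin N, dd n j (initCfg x j) = chi x / 2 ^ n := by
  rw [← prod_half]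
  symm
  apply Finset.prod_of_injOn (Fin.castLE hnN)
  · exact (Fin.castLE_injective hnN).injOn
  · intro i _
    exact Finset.mem_coe.mpr (Finset.mem_univ _)
  · intro j _ hj
    have hjn : ¬ j.1 < n := by
      intro h
      apply hj
      exact ⟨⟨j.1, h⟩, Finset.mem_coe.mpr (Finset.mem_univ _), by ext; rfl⟩
    simp [dd, initCfg, hjn]
  · intro i _
    simp [dd, initCfg]

theorem dd_off {n N : ℕ} (w : Cfg N) (hw : w ∉ Set.range (initCfg : (Fin n → Bool) → Cfg N)) :
    ∏ j : Fin N, dd n j (w j) = 0 := by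
  by_contra hne
  apply hw
  have hne := Finset.prod_ne_zero_iff.mp hne
  refine ⟨fun i => if h : i.1 < N then w ⟨i.1, h⟩ else false, ?_⟩
  funext j
  unfold initCfg
  split_ifs with h
  · simp
  · have := hne j (Finset.mem_univ _)
    simp only [dd, h, if_false] at this
    by_contra hcon
    apply this
    have : w j = true := by
      cases hh : w j
      · exact absurd hh.symm hcon
      · rfl
    simp [this]

theorem single_Zm {N : ℕ} (o : Fin N) :
    pm (single o Zm) = Matrix.diagonal (fun z : Cfg N => if z o then (-1 : ℂ) else 1) := by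
  have : (single o Zm : Fin N → M2) =
      fun j => Matrix.diagonal (fun b => if j = o then (if b then (-1 : ℂ) else 1) else 1) := by
    funext j
    by_cases h : j = o
    · subst h
      simp [single_same, Zm]
    · simp only [single_of_ne o Zm h, h, if_false]
      exact Matrix.diagonal_one.symm
  rw [this, pm_diagonal]
  congr 1
  funext z
  rw [Finset.prod_ite_eq' ]
  simp

theorem parityCorr_eq_trace {n N : ℕ} (hnN : n ≤ N) (C : List (Layer N)) (o : Fin N) :
    ((parityCorr n C o : ℝ) : ℂ) =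
      ((circMat C)ᴴ * pm (single o Zm) * circMat C * pm (rho n)).trace := by
  set U := circMat C with hU
  rw [single_Zm, rho_eq, pm_diagonal]
  have htr : (Uᴴ * Matrix.diagonal (fun z : Cfg N => if z o then (-1 : ℂ) else 1) * U *
      Matrix.diagonal (fun z : Cfg N => ∏ j, dd n j (z j))).trace =
      ∑ w : Cfg N, (∏ j, dd n j (w j)) *
        ∑ z : Cfg N, (if z o then (-1 : ℂ) else 1) * ((‖U z w‖ ^ 2 : ℝ) : ℂ) := by
    simp only [Matrix.trace, Matrix.diag_apply]
    apply Finset.sum_congr rfl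
    intro w _
    rw [Matrix.mul_diagonal, mul_comm]
    congr 1
    rw [Matrix.mul_apply]
    apply Finset.sum_congr rfl
    intro z _
    rw [Matrix.mul_diagonal, Matrix.conjTranspose_apply]
    have : star (U z w) * U z w = ((‖U z w‖ ^ 2 : ℝ) : ℂ) := by
      rw [Complex.star_def, Complex.conj_mul']
      push_cast
      rfl
    rw [← this]
    ring
  rw [htr]
  have hre : ∑ x : Fin n → Bool, (chi x / 2 ^ n) *
        ∑ z : Cfg N, (if z o then (-1 : ℂ) else 1) * ((‖U z (initCfg x)‖ ^ 2 : ℝ) : ℂ) =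
      ∑ w : Cfg N, (∏ j, dd n j (w j)) *
        ∑ z : Cfg N, (if z o then (-1 : ℂ) else 1) * ((‖U z w‖ ^ 2 : ℝ) : ℂ) := by
    apply Finset.sum_of_injOn initCfg
    · exact (initCfg_injective hnN).injOn
    · intro i _
      exact Finset.mem_coe.mpr (Finset.mem_univ _)
    · intro w _ hw
      rw [dd_off w, zero_mul]
      intro ⟨x, hx⟩
      exact hw ⟨x, Finset.mem_coe.mpr (Finset.mem_univ _), hx⟩
    · intro x _
      rw [dd_init hnN]
  rw [← hre]
  unfold parityCorr
  push_cast
  rw [Finset.sum_div]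
  apply Finset.sum_congr rfl
  intro x _
  rw [div_mul_eq_mul_div]
  congr 1
  unfold outProb
  rw [← hU]
  push_cast
  rw [← Finset.sum_sub_distrib, Finset.mul_sum]
  apply Finset.sum_congr rfl
  intro z _
  unfold chi
  cases hz : z o <;> cases hp : par x <;> simp

end Vale.Agent.P368
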