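import Mathlib

namespace Vale.Agent.P368

open Matrix

/-- computational basis states of `N` qubits -/
abbrev Cfg (N : ℕ) := Fin N → Bool

/-- linear operators on the state space of `N` qubits, as matrices in the computational basis -/
abbrev Op (N : ℕ) := Matrix (Cfg N) (Cfg N) ℂ

/-- the one-qubit operator `u` applied to the qubit `j` -/
def oneQ {N : ℕ} (j : Fin N) (u : Matrix Bool Bool ℂ) : Op N :=
  fun z z' => if ∀ i, i ≠ j → z i = z' i then u (z j) (z' j) else 0

/-- the action of the generalized Toffoli gate with control set `c` and target `b` on basis states: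
the target bit is flipped exactly when all control bits are `1` -/
def tofAct {N : ℕ} (c : Finset (Fin N)) (b : Fin N) (z : Cfg N) : Cfg N :=
  if ∀ i ∈ c, z i = true then Function.update z b (!(z b)) else z

/-- the generalized Toffoli gate as a (permutation) matrix -/
def toffoli {N : ℕ} (c : Finset (Fin N)) (b : Fin N) : Op N :=
  fun z z' => if z = tofAct c b z' then 1 else 0

/-- gates: arbitrary one-qubit unitaries, and generalized Toffoli gates with a nonempty set of
controls and a target outside it -/
inductive Gate (N : ℕ) : Type
  | one (j : Fin N) (u : Matrix.unitaryGroup Bool ℂ) : Gate N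
  | tof (c : Finset (Fin N)) (b : Fin N) (hc : c.Nonempty) (hb : b ∉ c) : Gate N

/-- the set of qubits a gate acts on -/
def Gate.supp {N : ℕ} : Gate N → Finset (Fin N)
  | .one j _ => {j}
  | .tof c b _ _ => insert b c

/-- the matrix of a gate -/
def Gate.mat {N : ℕ} : Gate N → Op N
  | .one j u => oneQ j u.1
  | .tof c b _ _ => toffoli c b

/-- multiqubit gates -/
def Gate.IsMulti {N : ℕ} : Gate N → Prop
  | .one _ _ => False
  | .tof _ _ _ _ => True

/-- a layer: gates with pairwise disjoint supports -/
structure Layer (N : ℕ) : Type where
  gates : List (Gate N)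
  disj : gates.Pairwise fun g h => Disjoint g.supp h.supp

/-- the matrix of a layer -/
def Layer.mat {N : ℕ} (L : Layer N) : Op N := (L.gates.map Gate.mat).prod

/-- a layer is entangling if it contains a multiqubit gate -/
def Layer.IsEnt {N : ℕ} (L : Layer N) : Prop := ∃ g ∈ L.gates, g.IsMulti

/-- the matrix of a circuit, given as the list of its layers, the head being applied first -/
def circMat {N : ℕ} : List (Layer N) → Op N
  | [] => 1
  | L :: C => circMat C * L.mat

open Classical in
/-- entangling depth: the number of layers containing a multiqubit gate -/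
noncomputable def entDepth {N : ℕ} (C : List (Layer N)) : ℕ := C.countP fun L => decide L.IsEnt

/-- the initial basis state: the input `x` on the first `n` qubits, zeros elsewhere -/
def initCfg {n N : ℕ} (x : Fin n → Bool) : Cfg N :=
  fun i => if h : i.1 < n then x ⟨i.1, h⟩ else false

/-- parity of a bit string -/
def par {n : ℕ} (x : Fin n → Bool) : Bool :=
  decide (Odd (Finset.univ.filter fun i => x i = true).card)

/-- the probability that measuring the qubit `o` in the computational basis gives `v`,
when the circuit `C` is run on the input `x` -/
noncomputable def outProb {n N : ℕ} (C : List (Layer N)) (o : Fin N) (x : Fin n → Bool) (v : Bool) :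
    ℝ :=
  ∑ z : Cfg N, if z o = v then ‖circMat C z (initCfg x)‖ ^ 2 else 0

/-- parity correlation: the average over uniform `x` of `Pr[correct] - Pr[wrong]` -/
noncomputable def parityCorr (n : ℕ) {N : ℕ} (C : List (Layer N)) (o : Fin N) : ℝ :=
  (∑ x : Fin n → Bool, (outProb C o x (par x) - outProb C o x (!(par x)))) / 2 ^ n

end Vale.Agent.P368
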