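import Vale.Agent.P368.Rf

namespace Vale.Agent.P368

open Matrix

theorem blockC_congr {N : ℕ} (s : Rf N) (E E' ρ : Fin N → M2) (h : ∀ j ∈ s.D, E j = E' j) :
    blockC s E ρ = blockC s E' ρ := by
  unfold blockC
  refine Finset.sum_congr rfl fun a _ => Finset.sum_congr rfl fun b _ => ?_
  have : ∏ j ∈ s.D, (s.sw a b E j * ρ j).trace = ∏ j ∈ s.D, (s.sw a b E' j * ρ j).trace := by
    refine Finset.prod_congr rfl fun j hj => ?_
    simp only [Rf.sw, h j hj]
  rw [this]

theorem rlMat_conjTranspose_cons {N : ℕ} (r : Rf N) (R : List (Rf N)) :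
    (rlMat (r :: R))ᴴ = (rlMat R)ᴴ * r.mat := by
  rw [rlMat_cons, Matrix.conjTranspose_mul, r.mat_conjTranspose]

theorem compl_split {N : ℕ} (r : Rf N) (R : List (Rf N)) (hdis : Disjoint r.D (RSupp R))
    (f : Fin N → ℂ) :
    ∏ j ∈ (RSupp R)ᶜ, f j = (∏ j ∈ r.D, f j) * ∏ j ∈ (RSupp (r :: R))ᶜ, f j := by
  have hsplit : (RSupp R)ᶜ = r.D ∪ (RSupp (r :: R))ᶜ := by
    ext j
    simp only [RSupp_cons, Finset.mem_compl, Finset.mem_union]
    constructor
    · intro h
      by_cases hj : j ∈ r.D
      · exact Or.inl hj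
      · exact Or.inr (by tauto)
    · rintro (h | h)
      · exact Finset.disjoint_left.1 hdis h
      · tauto
  have hd2 : Disjoint r.D (RSupp (r :: R))ᶜ := by
    rw [Finset.disjoint_left]
    intro j hj
    simp [RSupp_cons, hj]
  rw [hsplit, Finset.prod_union hd2]

theorem factor {N : ℕ} (R : List (Rf N)) (hR : RDisj R) (E ρ : Fin N → M2) :
    (pm E * rlMat R * pm ρ * (rlMat R)ᴴ).trace =
      (R.map fun r => blockC r E ρ).prod * ∏ j ∈ (RSupp R)ᶜ, (E j * ρ j).trace := by
  induction R generalizing E with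
  | nil =>
    simp [rlMat_nil, RSupp_nil, pm_mul, pm_trace]
  | cons r R ih =>
    rw [RDisj_cons] at hR
    have hdis : Disjoint r.D (RSupp R) := disjoint_RSupp r.D R hR.1
    have h1 : (pm E * rlMat (r :: R) * pm ρ * (rlMat (r :: R))ᴴ).trace
        = ((r.mat * pm E * r.mat) * rlMat R * pm ρ * (rlMat R)ᴴ).trace := by
      rw [rlMat_conjTranspose_cons, rlMat_cons, ← mul_assoc, Matrix.trace_mul_comm]
      simp only [mul_assoc]
    have h2 : ∀ a b : Bool, (pm (r.sw a b E) * rlMat R * pm ρ * (rlMat R)ᴴ).trace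
        = (R.map fun s => blockC s E ρ).prod *
          ((∏ j ∈ r.D, (r.sw a b E j * ρ j).trace) *
            ∏ j ∈ (RSupp (r :: R))ᶜ, (E j * ρ j).trace) := by
      intro a b
      have hA : (R.map fun s => blockC s (r.sw a b E) ρ) = R.map fun s => blockC s E ρ := by
        refine List.map_congr_left fun s hs => ?_
        refine blockC_congr s _ _ ρ fun j hj => ?_
        exact r.sw_of_notMem a b E (Finset.disjoint_right.1 (hR.1 s hs) hj)
      have hB : ∏ j ∈ (RSupp (r :: R))ᶜ, (r.sw a b E j * ρ j).trace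
          = ∏ j ∈ (RSupp (r :: R))ᶜ, (E j * ρ j).trace := by
        refine Finset.prod_congr rfl fun j hj => ?_
        have : j ∉ r.D := by
          simp only [RSupp_cons, Finset.mem_compl, Finset.mem_union] at hj
          tauto
        rw [r.sw_of_notMem a b E this]
      rw [ih hR.2, hA, compl_split r R hdis, hB]
    rw [h1, conj_expand]
    simp only [Finset.sum_mul, Matrix.trace_sum, smul_mul_assoc, Matrix.trace_smul, smul_eq_mul, h2]
    rw [List.map_cons, List.prod_cons]
    unfold blockC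
    simp only [Finset.sum_mul]
    refine Finset.sum_congr rfl fun a _ => Finset.sum_congr rfl fun b _ => ?_
    ring

end Vale.Agent.P368
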