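import Vale.Agent.P368.Factor

namespace Vale.Agent.P368

open Matrix

theorem gram_diag {ι : Type*} [Fintype ι] (X : Matrix ι ι ℂ) (z : ι) :
    (Xᴴ * X) z z = ((∑ y, ‖X y z‖ ^ 2 : ℝ) : ℂ) := by
  rw [Matrix.mul_apply]
  push_cast
  refine Finset.sum_congr rfl fun y _ => ?_
  rw [Matrix.conjTranspose_apply, Complex.star_def, Complex.conj_mul']

theorem hi_diag {ι : Type*} [Fintype ι] [DecidableEq ι] (Q g : Matrix ι ι ℂ) (hQ1 : Qᴴ = Q)
    (hQ2 : Q * Q = Q) (hg1 : gᴴ = g) (hg2 : g * g = 1) (z : ι) :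
    ∃ f : ℝ, 0 ≤ f ∧ f ≤ 1 ∧ (g * Q * g) z z = (f : ℂ) := by
  have e1 : g * Q * g = (Q * g)ᴴ * (Q * g) := by
    rw [Matrix.conjTranspose_mul, hQ1, hg1]
    calc g * Q * g = g * (Q * Q) * g := by rw [hQ2]
      _ = g * Q * (Q * g) := by simp only [Matrix.mul_assoc]
  have e2 : 1 - g * Q * g = ((1 - Q) * g)ᴴ * ((1 - Q) * g) := by
    rw [Matrix.conjTranspose_mul, Matrix.conjTranspose_sub, Matrix.conjTranspose_one, hQ1, hg1]
    have : (1 - Q) * (1 - Q) = 1 - Q := by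
      simp only [sub_mul, mul_sub, one_mul, mul_one, hQ2]
      abel
    calc 1 - g * Q * g = g * (1 - Q) * g := by
          simp only [sub_mul, mul_sub, mul_one, hg2]
      _ = g * ((1 - Q) * (1 - Q)) * g := by rw [this]
      _ = g * (1 - Q) * ((1 - Q) * g) := by simp only [Matrix.mul_assoc]
  refine ⟨∑ y, ‖(Q * g) y z‖ ^ 2, Finset.sum_nonneg fun y _ => by positivity, ?_, ?_⟩
  · have h1 : (g * Q * g) z z = ((∑ y, ‖(Q * g) y z‖ ^ 2 : ℝ) : ℂ) := by
      rw [e1]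
      exact gram_diag _ z
    have h2 : (1 - g * Q * g) z z = ((∑ y, ‖((1 - Q) * g) y z‖ ^ 2 : ℝ) : ℂ) := by
      rw [e2]
      exact gram_diag _ z
    rw [Matrix.sub_apply, Matrix.one_apply_eq, h1] at h2
    have h3 : (1 : ℝ) - ∑ y, ‖(Q * g) y z‖ ^ 2 = ∑ y, ‖((1 - Q) * g) y z‖ ^ 2 := by
      exact_mod_cast h2
    have h4 : (0 : ℝ) ≤ ∑ y, ‖((1 - Q) * g) y z‖ ^ 2 := Finset.sum_nonneg fun y _ => by positivity
    linarith
  · rw [e1]
    exact gram_diag _ z

theorem hi_trace_bound {ι : Type*} [Fintype ι] [DecidableEq ι] (Q g : Matrix ι ι ℂ) (hQ1 : Qᴴ = Q)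
    (hQ2 : Q * Q = Q) (hg1 : gᴴ = g) (hg2 : g * g = 1) (d : ι → ℂ) (hd : ∑ z, ‖d z‖ ≤ 1) :
    ‖(Q * g * Matrix.diagonal d * gᴴ).trace‖ ≤ 1 ∧
      (∑ z, d z = 0 → ‖(Q * g * Matrix.diagonal d * gᴴ).trace‖ ≤ 1 / 2) := by
  choose f hf0 hf1 hf using hi_diag Q g hQ1 hQ2 hg1 hg2
  have e : (Q * g * Matrix.diagonal d * gᴴ).trace = ∑ z, (f z : ℂ) * d z := by
    rw [hg1, Matrix.trace_mul_comm]
    have : g * (Q * g * Matrix.diagonal d) = (g * Q * g) * Matrix.diagonal d := by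
      simp only [Matrix.mul_assoc]
    rw [this, Matrix.trace]
    refine Finset.sum_congr rfl fun z _ => ?_
    rw [Matrix.diag_apply, Matrix.mul_diagonal, hf]
  rw [e]
  constructor
  · refine (norm_sum_le _ _).trans (le_trans ?_ hd)
    refine Finset.sum_le_sum fun z _ => ?_
    rw [norm_mul, Complex.norm_real, Real.norm_eq_abs, abs_of_nonneg (hf0 z)]
    exact mul_le_of_le_one_left (norm_nonneg _) (hf1 z)
  · intro h0
    have e2 : ∑ z, (f z : ℂ) * d z = ∑ z, ((f z - 1 / 2 : ℝ) : ℂ) * d z := by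
      have : ∑ z, ((f z - 1 / 2 : ℝ) : ℂ) * d z = ∑ z, (f z : ℂ) * d z - (1 / 2) * ∑ z, d z := by
        rw [Finset.mul_sum, ← Finset.sum_sub_distrib]
        refine Finset.sum_congr rfl fun z _ => ?_
        push_cast
        ring
      rw [this, h0]
      simp
    rw [e2]
    refine (norm_sum_le _ _).trans ?_
    calc ∑ z, ‖((f z - 1 / 2 : ℝ) : ℂ) * d z‖ ≤ ∑ z, (1 / 2) * ‖d z‖ := by
          refine Finset.sum_le_sum fun z _ => ?_
          rw [norm_mul, Complex.norm_real, Real.norm_eq_abs]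
          apply mul_le_mul_of_nonneg_right _ (norm_nonneg _)
          rw [abs_le]
          constructor
          · linarith [hf0 z]
          · linarith [hf1 z]
      _ = (1 / 2) * ∑ z, ‖d z‖ := by rw [Finset.mul_sum]
      _ ≤ 1 / 2 := by linarith

noncomputable def rhoD (n : ℕ) {N : ℕ} (j : Fin N) : Bool → ℂ :=
  if j.1 < n then (fun b => if b then -(1 / 2) else 1 / 2) else (fun b => if b then 0 else 1)

theorem rho_eq_rhoD (n : ℕ) {N : ℕ} (j : Fin N) : rho n j = Matrix.diagonal (rhoD n j) := by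
  unfold rho rhoD
  split_ifs <;> rfl

theorem blockC_congr_both {N : ℕ} (r : Rf N) (E E' ρ ρ' : Fin N → M2) (h1 : ∀ j ∈ r.D, E j = E' j)
    (h2 : ∀ j ∈ r.D, ρ j = ρ' j) : blockC r E ρ = blockC r E' ρ' := by
  unfold blockC
  refine Finset.sum_congr rfl fun a _ => Finset.sum_congr rfl fun b _ => ?_
  congr 1
  refine Finset.prod_congr rfl fun j hj => ?_
  simp only [Rf.sw, h1 j hj, h2 j hj]

theorem blockC_le_half {N : ℕ} (n : ℕ) (r : Rf N) (E : Fin N → M2) (hE : ∀ j ∈ r.D, IsHI (E j)) :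
    ‖blockC r E (rho n)‖ ≤ 1 ∧ ((∃ j ∈ r.D, j.1 < n) → ‖blockC r E (rho n)‖ ≤ 1 / 2) := by
  set E' : Fin N → M2 := fun j => if j ∈ r.D then E j else 1 with hE'
  set δ : Fin N → Bool → ℂ := fun j => if j ∈ r.D then rhoD n j else (fun b => if b then 0 else 1)
    with hδ
  have hHI : ∀ j, IsHI (E' j) := by
    intro j
    simp only [hE']
    split_ifs with hj
    · exact hE j hj
    · exact one_isHI
  have e1 : blockC r E (rho n) = blockC r E' (fun j => Matrix.diagonal (δ j)) := by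
    apply blockC_congr_both
    · intro j hj
      simp [hE', hj]
    · intro j hj
      simp [hδ, hj, rho_eq_rhoD]
  have e2 : (pm E' * r.mat * pm (fun j => Matrix.diagonal (δ j)) * r.matᴴ).trace =
      blockC r E' (fun j => Matrix.diagonal (δ j)) := by
    have h := factor [r] (by simp [RDisj]) E' (fun j => Matrix.diagonal (δ j))
    rw [rlMat_cons, rlMat_nil, mul_one] at h
    rw [h]
    simp only [List.map_cons, List.map_nil, List.prod_cons, List.prod_nil, mul_one, RSupp_cons,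
      RSupp_nil, Finset.union_empty]
    rw [Finset.prod_eq_one, mul_one]
    intro j hj
    rw [Finset.mem_compl] at hj
    simp [hE', hδ, hj, Matrix.trace]
  rw [e1, ← e2, pm_diagonal]
  have hQ1 : (pm E')ᴴ = pm E' := by
    rw [pm_conjTranspose]
    congr 1
    funext j
    exact (hHI j).1
  have hQ2 : pm E' * pm E' = pm E' := by
    rw [pm_mul]
    congr 1
    funext j
    exact (hHI j).2
  have hsum1 : ∀ j, ∑ b, ‖δ j b‖ = 1 := by
    intro j
    simp only [hδ, rhoD]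
    split_ifs <;> simp <;> norm_num
  have hd : ∑ z : Cfg N, ‖∏ j, δ j (z j)‖ ≤ 1 := by
    simp only [norm_prod]
    rw [sum_cfg_prod_real (fun j b => ‖δ j b‖)]
    rw [Finset.prod_eq_one fun j _ => hsum1 j]
  obtain ⟨h1, h2⟩ := hi_trace_bound (pm E') r.mat hQ1 hQ2 r.mat_conjTranspose r.mat_mul_mat
    (fun z : Cfg N => ∏ j, δ j (z j)) hd
  refine ⟨h1, ?_⟩
  rintro ⟨j, hj, hjn⟩
  apply h2
  rw [sum_cfg_prod δ]
  apply Finset.prod_eq_zero (Finset.mem_univ j)
  simp [hδ, hj, rhoD, hjn]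

end Vale.Agent.P368
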