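import Vale.Agent.P368.Rf

namespace Vale.Agent.P368

open Matrix

theorem light_cone {N : ℕ} (r : Rf N) (E : Fin N → M2) (hE : ∀ j ∈ r.D, E j = 1) :
    r.mat * pm E * r.mat = pm E := by
  have hc : r.P * pm E = pm E * r.P := by
    unfold Rf.P
    rw [pm_mul, pm_mul]
    congr 1
    funext j
    by_cases hj : j ∈ r.D
    · rw [hE j hj, mul_one, one_mul]
    · rw [r.loc_of_notMem hj, mul_one, one_mul]
  have hc' : r.mat * pm E = pm E * r.mat := by
    unfold Rf.mat
    rw [sub_mul, mul_sub, one_mul, mul_one, smul_mul_assoc, mul_smul_comm, hc]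
  rw [hc', Matrix.mul_assoc, r.mat_mul_mat, Matrix.mul_one]

theorem light_cone_list {N : ℕ} (R : List (Rf N)) (E : Fin N → M2)
    (hE : ∀ j ∈ RSupp R, E j = 1) : (rlMat R)ᴴ * pm E * rlMat R = pm E := by
  induction R with
  | nil => simp [rlMat_nil]
  | cons r R ih =>
    rw [rlMat_cons, Matrix.conjTranspose_mul, r.mat_conjTranspose]
    have h1 : r.mat * pm E * r.mat = pm E :=
      light_cone r E fun j hj => hE j (by rw [RSupp_cons]; exact Finset.mem_union_left _ hj)
    have h2 := ih fun j hj => hE j (by rw [RSupp_cons]; exact Finset.mem_union_right _ hj)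
    calc (rlMat R)ᴴ * r.mat * pm E * (r.mat * rlMat R)
        = (rlMat R)ᴴ * (r.mat * pm E * r.mat) * rlMat R := by simp only [Matrix.mul_assoc]
      _ = pm E := by rw [h1, h2]

def trivRf (N : ℕ) : Rf N where
  D := ∅
  th := fun _ b => if b then 1 else 0
  unit := by
    intro j
    simp [dotProduct]

theorem trivRf_conj {N : ℕ} (X : Op N) : (trivRf N).mat * X * (trivRf N).mat = X := by
  have h : (trivRf N).P = 1 := by
    unfold Rf.P
    rw [← pm_one]
    congr 1
  have h2 : (trivRf N).mat = -1 := by
    unfold Rf.mat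
    rw [h]
    module
  rw [h2]
  simp

theorem peel {N : ℕ} (R : List (Rf N)) (hR : RDisj R) (o : Fin N) (B : M2) :
    ∃ r : Rf N, (rlMat R)ᴴ * pm (single o B) * rlMat R = r.mat * pm (single o B) * r.mat := by
  induction R with
  | nil =>
    refine ⟨trivRf N, ?_⟩
    rw [trivRf_conj]
    simp [rlMat_nil]
  | cons r R ih =>
    rw [RDisj_cons] at hR
    have e : (rlMat (r :: R))ᴴ * pm (single o B) * rlMat (r :: R) =
        (rlMat R)ᴴ * (r.mat * pm (single o B) * r.mat) * rlMat R := by
      rw [rlMat_cons, Matrix.conjTranspose_mul, r.mat_conjTranspose]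
      simp only [Matrix.mul_assoc]
    rw [e]
    by_cases ho : o ∈ r.D
    · refine ⟨r, ?_⟩
      have hd := disjoint_RSupp r.D R hR.1
      rw [conj_expand]
      simp only [Fintype.sum_bool, Matrix.mul_add, Matrix.add_mul, Matrix.mul_smul,
        Matrix.smul_mul]
      have hl : ∀ a b : Bool, (rlMat R)ᴴ * pm (r.sw a b (single o B)) * rlMat R =
          pm (r.sw a b (single o B)) := by
        intro a b
        apply light_cone_list
        intro j hj
        have hj' : j ∉ r.D := fun h => (Finset.disjoint_left.1 hd) h hj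
        have hjo : j ≠ o := by
          rintro rfl
          exact hj' ho
        rw [r.sw_of_notMem a b _ hj', single_of_ne _ _ hjo]
      simp only [hl]
    · have h1 : r.mat * pm (single o B) * r.mat = pm (single o B) := by
        apply light_cone
        intro j hj
        have hjo : j ≠ o := by
          rintro rfl
          exact ho hj
        exact single_of_ne _ _ hjo
      rw [h1]
      exact ih hR.2

end Vale.Agent.P368
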