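import Vale.Agent.P368.Rf

namespace Vale.Agent.P368

open Matrix

noncomputable def nsq (v : Bool → ℂ) : ℝ := ∑ b, ‖v b‖ ^ 2

def RC (M : M2) : Prop := ∃ u v : Bool → ℂ, nsq u ≤ 1 ∧ nsq v ≤ 1 ∧ M = Matrix.vecMulVec u v

def Small (M : M2) : Prop := M = 1 ∨ RC M

def UR (M : M2) : Prop := Mᴴ * M = 1 ∨ RC M

noncomputable def tau (n : ℕ) {N : ℕ} (o j : Fin N) : ℝ := if j.1 < n ∧ j ≠ o then 1 / 2 else 1

def Good {N : ℕ} (o : Fin N) (E : Fin N → M2) : Prop :=
  (∀ j, UR (E j)) ∧ ∀ j, j ≠ o → Small (E j) ∧ IsHI (E j)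

theorem nsq_nonneg (v : Bool → ℂ) : 0 ≤ nsq v := Finset.sum_nonneg fun b _ => by positivity

theorem nsq_eq (v : Bool → ℂ) : nsq v = ‖v true‖ ^ 2 + ‖v false‖ ^ 2 := by
  simp [nsq]

theorem nsq_star (v : Bool → ℂ) : nsq (star v) = nsq v := by
  simp [nsq]

theorem nsq_smul (c : ℂ) (v : Bool → ℂ) : nsq (c • v) = ‖c‖ ^ 2 * nsq v := by
  simp only [nsq_eq, Pi.smul_apply, smul_eq_mul, norm_mul]
  ring

theorem nsq_of_unit (v : Bool → ℂ) (hv : star v ⬝ᵥ v = 1) : nsq v = 1 := by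
  have h : ((nsq v : ℝ) : ℂ) = 1 := by
    rw [← hv, nsq, dotProduct]
    push_cast
    refine Finset.sum_congr rfl fun b _ => ?_
    rw [Pi.star_apply, Complex.star_def, Complex.conj_mul']
  exact_mod_cast h

theorem norm_dot_le (u v : Bool → ℂ) (hu : nsq u ≤ 1) (hv : nsq v ≤ 1) : ‖u ⬝ᵥ v‖ ≤ 1 := by
  have h : ‖u ⬝ᵥ v‖ ≤ ‖u true‖ * ‖v true‖ + ‖u false‖ * ‖v false‖ := by
    simp only [dotProduct, Fintype.sum_bool]
    refine (norm_add_le _ _).trans ?_
    rw [norm_mul, norm_mul]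
  rw [nsq_eq] at hu hv
  nlinarith [sq_nonneg (‖u true‖ - ‖v true‖), sq_nonneg (‖u false‖ - ‖v false‖)]

theorem proj_RC (v : Bool → ℂ) (hv : star v ⬝ᵥ v = 1) : RC (proj v) := by
  refine ⟨v, star v, ?_, ?_, rfl⟩
  · rw [nsq_of_unit v hv]
  · rw [nsq_star, nsq_of_unit v hv]

theorem RC.mul {M M' : M2} (h : RC M) (h' : RC M') : RC (M * M') := by
  obtain ⟨u, v, hu, hv, rfl⟩ := h
  obtain ⟨u', v', hu', hv', rfl⟩ := h'
  refine ⟨(v ⬝ᵥ u') • u, v', ?_, hv', ?_⟩
  · rw [nsq_smul]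
    have h1 := norm_dot_le v u' hv hu'
    have h2 : ‖v ⬝ᵥ u'‖ ^ 2 ≤ 1 := pow_le_one₀ (norm_nonneg _) h1
    calc ‖v ⬝ᵥ u'‖ ^ 2 * nsq u ≤ 1 * 1 := mul_le_mul h2 hu (nsq_nonneg _) (by norm_num)
      _ = 1 := one_mul 1
  · rw [Matrix.vecMulVec_mul_vecMulVec, Matrix.smul_vecMulVec, Matrix.vecMulVec_smul]

theorem nsq_mulVec_of_unitary (U : M2) (hU : Uᴴ * U = 1) (v : Bool → ℂ) :
    nsq (U *ᵥ v) = nsq v := by
  have key : ∀ x : Bool → ℂ, ((nsq x : ℝ) : ℂ) = star x ⬝ᵥ x := by
    intro x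
    rw [nsq, dotProduct]
    push_cast
    refine Finset.sum_congr rfl fun b _ => ?_
    rw [Pi.star_apply, Complex.star_def, Complex.conj_mul']
  have h : ((nsq (U *ᵥ v) : ℝ) : ℂ) = ((nsq v : ℝ) : ℂ) := by
    rw [key, key, Matrix.star_mulVec, Matrix.dotProduct_mulVec, Matrix.vecMul_vecMul, hU,
      Matrix.vecMul_one]
  exact_mod_cast h

theorem unitary_mul_RC {U M : M2} (hU : Uᴴ * U = 1) (h : RC M) : RC (U * M) := by
  obtain ⟨u, v, hu, hv, rfl⟩ := h
  refine ⟨U *ᵥ u, v, ?_, hv, ?_⟩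
  · rw [nsq_mulVec_of_unitary U hU]
    exact hu
  · rw [Matrix.mul_vecMulVec]

theorem RC_mul_unitary {U M : M2} (hU : Uᴴ * U = 1) (h : RC M) : RC (M * U) := by
  obtain ⟨u, v, hu, hv, rfl⟩ := h
  refine ⟨u, Uᵀ *ᵥ v, hu, ?_, ?_⟩
  · have hU' : U * Uᴴ = 1 := mul_eq_one_comm.1 hU
    have hT : (Uᵀ)ᴴ * Uᵀ = 1 := by
      have : (Uᵀ)ᴴ * Uᵀ = (U * Uᴴ)ᵀ := by
        rw [Matrix.transpose_mul]
        rfl
      rw [this, hU', Matrix.transpose_one]
    rw [nsq_mulVec_of_unitary _ hT]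
    exact hv
  · rw [Matrix.vecMulVec_mul, Matrix.mulVec_transpose]

theorem Small.mul {M M' : M2} (h : Small M) (h' : Small M') : Small (M * M') := by
  rcases h with rfl | h
  · rwa [one_mul]
  · rcases h' with rfl | h'
    · rw [mul_one]
      exact Or.inr h
    · exact Or.inr (h.mul h')

theorem UR.mul {M M' : M2} (h : UR M) (h' : UR M') : UR (M * M') := by
  rcases h with h | h
  · rcases h' with h' | h'
    · left
      rw [Matrix.conjTranspose_mul]
      calc M'ᴴ * Mᴴ * (M * M') = M'ᴴ * (Mᴴ * M) * M' := by simp only [Matrix.mul_assoc]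
        _ = 1 := by rw [h, Matrix.mul_one, h']
    · exact Or.inr (unitary_mul_RC h h')
  · rcases h' with h' | h'
    · exact Or.inr (RC_mul_unitary h' h)
    · exact Or.inr (h.mul h')

theorem Small.toUR {M : M2} (h : Small M) : UR M := by
  rcases h with rfl | h
  · left
    simp
  · exact Or.inr h

theorem trace_mul_diag (M : M2) (d : Bool → ℂ) :
    (M * Matrix.diagonal d).trace = M true true * d true + M false false * d false := by
  simp [Matrix.trace, Matrix.mul_diagonal]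

theorem RC.entry_sum_le {M : M2} (h : RC M) : ‖M true true‖ + ‖M false false‖ ≤ 1 := by
  obtain ⟨u, v, hu, hv, rfl⟩ := h
  simp only [Matrix.vecMulVec_apply, norm_mul]
  rw [nsq_eq] at hu hv
  nlinarith [sq_nonneg (‖u true‖ - ‖v true‖), sq_nonneg (‖u false‖ - ‖v false‖)]

theorem unitary_entry_le {U : M2} (hU : Uᴴ * U = 1) (b : Bool) : ‖U b b‖ ≤ 1 := by
  have h := nsq_mulVec_of_unitary U hU (Pi.single b 1)
  have h1 : nsq (Pi.single b 1) = 1 := by
    cases b <;> simp [nsq_eq]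
  rw [h1, Matrix.mulVec_single_one, nsq_eq] at h
  have h2 : ‖U b b‖ ^ 2 ≤ 1 := by
    cases b
    · have : 0 ≤ ‖U.col false true‖ ^ 2 := by positivity
      simp only [Matrix.col_apply] at h this
      linarith
    · have : 0 ≤ ‖U.col true false‖ ^ 2 := by positivity
      simp only [Matrix.col_apply] at h this
      linarith
  exact (sq_le_one_iff₀ (norm_nonneg _)).1 h2

theorem Small.trace_rho_le {M : M2} (h : Small M) (n : ℕ) {N : ℕ} (j : Fin N) (hj : j.1 < n) :
    ‖(M * rho n j).trace‖ ≤ 1 / 2 := by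
  unfold rho
  rw [if_pos hj, trace_mul_diag]
  rcases h with rfl | h
  · simp
  · have h1 := h.entry_sum_le
    simp only [if_true, Bool.false_eq_true, if_false]
    refine (norm_add_le _ _).trans ?_
    rw [norm_mul, norm_mul]
    have e1 : ‖(-(1 / 2) : ℂ)‖ = 1 / 2 := by
      rw [norm_neg]
      norm_num
    have e2 : ‖(1 / 2 : ℂ)‖ = 1 / 2 := by norm_num
    rw [e1, e2]
    linarith

theorem UR.trace_rho_le {M : M2} (h : UR M) (n : ℕ) {N : ℕ} (j : Fin N) :
    ‖(M * rho n j).trace‖ ≤ 1 := by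
  have hb : ‖M true true‖ ≤ 1 ∧ ‖M false false‖ ≤ 1 := by
    rcases h with h | h
    · exact ⟨unitary_entry_le h true, unitary_entry_le h false⟩
    · have h1 := h.entry_sum_le
      have := norm_nonneg (M true true)
      have := norm_nonneg (M false false)
      constructor <;> linarith
  unfold rho
  split_ifs with hj
  · rw [trace_mul_diag]
    simp only [if_true, Bool.false_eq_true, if_false]
    refine (norm_add_le _ _).trans ?_
    rw [norm_mul, norm_mul]
    have e1 : ‖(-(1 / 2) : ℂ)‖ = 1 / 2 := by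
      rw [norm_neg]
      norm_num
    have e2 : ‖(1 / 2 : ℂ)‖ = 1 / 2 := by norm_num
    rw [e1, e2]
    linarith [hb.1, hb.2]
  · rw [trace_mul_diag]
    simp only [if_true, Bool.false_eq_true, if_false, mul_zero, mul_one, zero_add]
    exact hb.2

theorem Rf.loc_small {N : ℕ} (r : Rf N) (j : Fin N) : Small (r.loc j) := by
  unfold Rf.loc
  split_ifs
  · exact Or.inr (proj_RC _ (r.unit j))
  · exact Or.inl rfl

theorem small_ite {N : ℕ} (r : Rf N) (a : Bool) (j : Fin N) :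
    Small (if a then r.loc j else 1) := by
  cases a
  · exact Or.inl rfl
  · exact r.loc_small j

theorem good_sw {N : ℕ} (o : Fin N) (r : Rf N) (a b : Bool) (B : M2) (hB : Bᴴ * B = 1) :
    Good o (r.sw a b (single o B)) := by
  constructor
  · intro j
    unfold Rf.sw
    refine UR.mul (UR.mul (small_ite r a j).toUR ?_) (small_ite r b j).toUR
    by_cases hj : j = o
    · subst hj
      rw [single_same]
      exact Or.inl hB
    · rw [single_of_ne _ _ hj]
      exact Small.toUR (Or.inl rfl)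
  · intro j hj
    unfold Rf.sw
    rw [single_of_ne _ _ hj, mul_one]
    refine ⟨(small_ite r a j).mul (small_ite r b j), ?_⟩
    cases a <;> cases b
    · simpa using one_isHI
    · simpa using r.loc_isHI j
    · simpa using r.loc_isHI j
    · simp only [if_true]
      rw [(r.loc_isHI j).2]
      exact r.loc_isHI j

theorem free_trace_le {N : ℕ} (n : ℕ) (o : Fin N) (E : Fin N → M2) (hE : Good o E) (j : Fin N) :
    ‖(E j * rho n j).trace‖ ≤ tau n o j := by
  unfold tau
  split_ifs with h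
  · exact (hE.2 j h.2).1.trace_rho_le n j h.1
  · exact (hE.1 j).trace_rho_le n j

theorem sw_trace_le {N : ℕ} (n : ℕ) (o : Fin N) (r : Rf N) (a b : Bool) (E : Fin N → M2)
    (hE : Good o E) (j : Fin N) : ‖(r.sw a b E j * rho n j).trace‖ ≤ tau n o j := by
  unfold tau
  by_cases h : j.1 < n ∧ j ≠ o
  · rw [if_pos h]
    exact (((small_ite r a j).mul (hE.2 j h.2).1).mul (small_ite r b j)).trace_rho_le n j h.1
  · rw [if_neg h]
    exact (((small_ite r a j).toUR.mul (hE.1 j)).mul (small_ite r b j).toUR).trace_rho_le n j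

theorem blockC_le_nine {N : ℕ} (n : ℕ) (o : Fin N) (r : Rf N) (E : Fin N → M2) (hE : Good o E) :
    ‖blockC r E (rho n)‖ ≤ 9 * ∏ j ∈ r.D, tau n o j := by
  have hterm : ∀ a b : Bool, ‖cf a b * ∏ j ∈ r.D, (r.sw a b E j * rho n j).trace‖ ≤
      ‖cf a b‖ * ∏ j ∈ r.D, tau n o j := by
    intro a b
    rw [norm_mul, norm_prod]
    apply mul_le_mul_of_nonneg_left _ (norm_nonneg _)
    exact Finset.prod_le_prod (fun j _ => norm_nonneg _) fun j _ => sw_trace_le n o r a b E hE j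
  unfold blockC
  simp only [Fintype.sum_bool]
  have h1 := hterm true true
  have h2 := hterm true false
  have h3 := hterm false true
  have h4 := hterm false false
  have c1 : ‖cf true true‖ = 4 := by simp [cf]; norm_num
  have c2 : ‖cf true false‖ = 2 := by simp [cf]
  have c3 : ‖cf false true‖ = 2 := by simp [cf]
  have c4 : ‖cf false false‖ = 1 := by simp [cf]
  rw [c1] at h1
  rw [c2] at h2
  rw [c3] at h3
  rw [c4] at h4
  refine (norm_add_le _ _).trans ?_
  have t1 := norm_add_le (cf true true * ∏ j ∈ r.D, (r.sw true true E j * rho n j).trace)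
    (cf true false * ∏ j ∈ r.D, (r.sw true false E j * rho n j).trace)
  have t2 := norm_add_le (cf false true * ∏ j ∈ r.D, (r.sw false true E j * rho n j).trace)
    (cf false false * ∏ j ∈ r.D, (r.sw false false E j * rho n j).trace)
  linarith

end Vale.Agent.P368
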