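import Vale.Agent.P368.NF
import Vale.Agent.P368.Corr
import Vale.Agent.P368.Peel
import Vale.Agent.P368.Two
import Vale.Agent.P368.Half

namespace Vale.Agent.P368

open Matrix

noncomputable def qq : ℝ := (2 : ℝ) ^ (-(1 / 4 : ℝ))

theorem qq_pos : 0 < qq := Real.rpow_pos_of_pos (by norm_num) _

theorem qq_pow4 : qq ^ 4 = 1 / 2 := by
  unfold qq
  rw [← Real.rpow_natCast, ← Real.rpow_mul (by norm_num)]
  norm_num

theorem qq_le_one : qq ≤ 1 := by
  by_contra h
  push Not at h
  have : (1 : ℝ) < qq ^ 4 := one_lt_pow₀ h (by norm_num)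
  rw [qq_pow4] at this
  norm_num at this

theorem qq_ge : 81 / 100 ≤ qq := by
  by_contra h
  push Not at h
  have : qq ^ 4 < (81 / 100 : ℝ) ^ 4 := pow_lt_pow_left₀ h qq_pos.le (by norm_num)
  rw [qq_pow4] at this
  norm_num at this

theorem qq_pow (n : ℕ) : qq ^ n = (2 : ℝ) ^ (-(n : ℝ) / 4) := by
  unfold qq
  rw [← Real.rpow_natCast, ← Real.rpow_mul (by norm_num)]
  congr 1
  ring

noncomputable def kap (n : ℕ) {N : ℕ} (o j : Fin N) : ℝ := if j.1 < n ∧ j ≠ o then qq else 1

def cnt (n : ℕ) {N : ℕ} (o : Fin N) (D : Finset (Fin N)) : ℕ :=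
  (D.filter fun j => j.1 < n ∧ j ≠ o).card

theorem prod_kap (n : ℕ) {N : ℕ} (o : Fin N) (D : Finset (Fin N)) :
    ∏ j ∈ D, kap n o j = qq ^ cnt n o D := by
  unfold kap cnt
  rw [Finset.prod_ite]
  simp

theorem prod_tau (n : ℕ) {N : ℕ} (o : Fin N) (D : Finset (Fin N)) :
    ∏ j ∈ D, tau n o j = (qq ^ cnt n o D) ^ 4 := by
  unfold tau cnt
  rw [Finset.prod_ite]
  rw [← pow_mul, mul_comm _ 4, pow_mul, qq_pow4]
  simp

theorem tau_le_kap (n : ℕ) {N : ℕ} (o j : Fin N) : tau n o j ≤ kap n o j := by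
  unfold tau kap
  split_ifs
  · have := qq_ge
    linarith
  · exact le_rfl

theorem tau_nonneg (n : ℕ) {N : ℕ} (o j : Fin N) : 0 ≤ tau n o j := by
  unfold tau
  split_ifs <;> norm_num

theorem kap_nonneg (n : ℕ) {N : ℕ} (o j : Fin N) : 0 ≤ kap n o j :=
  (tau_nonneg n o j).trans (tau_le_kap n o j)

theorem block_num (m : ℕ) (c : ℝ) (h1 : c ≤ 1) (h2 : 1 ≤ m → c ≤ 1 / 2)
    (h3 : c ≤ 9 * (qq ^ m) ^ 4) : c ≤ qq ^ m := by
  rcases Nat.eq_zero_or_pos m with rfl | hm
  · simpa using h1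
  · rcases Nat.lt_or_ge m 5 with h5 | h5
    · refine (h2 hm).trans ?_
      rw [← qq_pow4]
      exact pow_le_pow_of_le_one qq_pos.le qq_le_one (by omega)
    · refine h3.trans ?_
      have e : (qq ^ m) ^ 4 = qq ^ (3 * m) * qq ^ m := by
        rw [← pow_mul, ← pow_add]
        congr 1
        ring
      rw [e, ← mul_assoc]
      have hq : qq ^ (3 * m) ≤ qq ^ 15 := pow_le_pow_of_le_one qq_pos.le qq_le_one (by omega)
      have h16 : qq ^ 15 * qq = 1 / 16 := by
        have : qq ^ 15 * qq = (qq ^ 4) ^ 4 := by ring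
        rw [this, qq_pow4]
        norm_num
      have h15 : 9 * qq ^ 15 ≤ 1 := by
        have hg := qq_ge
        have hp : 0 ≤ qq ^ 15 := pow_nonneg qq_pos.le _
        nlinarith
      have hm0 : 0 ≤ qq ^ m := pow_nonneg qq_pos.le _
      calc 9 * qq ^ (3 * m) * qq ^ m ≤ 1 * qq ^ m := by
            apply mul_le_mul_of_nonneg_right _ hm0
            linarith
        _ = qq ^ m := one_mul _

theorem block_le {N : ℕ} (n : ℕ) (o : Fin N) (E : Fin N → M2) (hE : Good o E) (r : Rf N)
    (ho : o ∉ r.D) : ‖blockC r E (rho n)‖ ≤ ∏ j ∈ r.D, kap n o j := by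
  rw [prod_kap]
  have hHI : ∀ j ∈ r.D, IsHI (E j) := by
    intro j hj
    have : j ≠ o := by
      rintro rfl
      exact ho hj
    exact (hE.2 j this).2
  obtain ⟨h1, h2⟩ := blockC_le_half n r E hHI
  apply block_num _ _ h1
  · intro hm
    apply h2
    have : 0 < cnt n o r.D := hm
    unfold cnt at this
    obtain ⟨j, hj⟩ := Finset.card_pos.1 this
    rw [Finset.mem_filter] at hj
    exact ⟨j, hj.1, hj.2.1⟩
  · rw [← prod_tau]
    exact blockC_le_nine n o r E hE

theorem block_le' {N : ℕ} (n : ℕ) (o : Fin N) (E : Fin N → M2) (hE : Good o E) (r : Rf N) :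
    ‖blockC r E (rho n)‖ ≤ 9 * ∏ j ∈ r.D, kap n o j := by
  refine (blockC_le_nine n o r E hE).trans ?_
  apply mul_le_mul_of_nonneg_left _ (by norm_num)
  exact Finset.prod_le_prod (fun j _ => tau_nonneg n o j) (fun j _ => tau_le_kap n o j)

theorem list_le {N : ℕ} (n : ℕ) (o : Fin N) (E : Fin N → M2) (hE : Good o E) (R : List (Rf N))
    (hR : RDisj R) :
    ‖(R.map fun r => blockC r E (rho n)).prod‖ ≤
      (if o ∈ RSupp R then 9 else 1) * ∏ j ∈ RSupp R, kap n o j := by
  induction R with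
  | nil => simp [RSupp_nil]
  | cons r R ih =>
    rw [RDisj_cons] at hR
    have hd := disjoint_RSupp r.D R hR.1
    have ih' := ih hR.2
    rw [List.map_cons, List.prod_cons, norm_mul, RSupp_cons, Finset.prod_union hd]
    have hk1 : 0 ≤ ∏ j ∈ r.D, kap n o j := Finset.prod_nonneg fun j _ => kap_nonneg n o j
    have hk2 : 0 ≤ ∏ j ∈ RSupp R, kap n o j := Finset.prod_nonneg fun j _ => kap_nonneg n o j
    by_cases ho : o ∈ r.D
    · have ho' : o ∉ RSupp R := Finset.disjoint_left.1 hd ho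
      rw [if_neg ho', one_mul] at ih'
      rw [if_pos (Finset.mem_union_left _ ho)]
      calc ‖blockC r E (rho n)‖ * ‖(R.map fun r => blockC r E (rho n)).prod‖
          ≤ (9 * ∏ j ∈ r.D, kap n o j) * ∏ j ∈ RSupp R, kap n o j :=
            mul_le_mul (block_le' n o E hE r) ih' (norm_nonneg _) (by positivity)
        _ = 9 * ((∏ j ∈ r.D, kap n o j) * ∏ j ∈ RSupp R, kap n o j) := by ring
    · have hiff : (o ∈ r.D ∪ RSupp R) ↔ o ∈ RSupp R := by
        simp [ho]
      simp only [hiff]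
      have hc : (0 : ℝ) ≤ if o ∈ RSupp R then 9 else 1 := by split_ifs <;> norm_num
      calc ‖blockC r E (rho n)‖ * ‖(R.map fun r => blockC r E (rho n)).prod‖
          ≤ (∏ j ∈ r.D, kap n o j) * ((if o ∈ RSupp R then 9 else 1) * ∏ j ∈ RSupp R, kap n o j) :=
            mul_le_mul (block_le n o E hE r ho) ih' (norm_nonneg _) hk1
        _ = (if o ∈ RSupp R then 9 else 1) *
              ((∏ j ∈ r.D, kap n o j) * ∏ j ∈ RSupp R, kap n o j) := by ring

theorem term_le {N : ℕ} (n : ℕ) (o : Fin N) (E : Fin N → M2) (hE : Good o E) (R : List (Rf N))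
    (hR : RDisj R) :
    ‖(pm E * rlMat R * pm (rho n) * (rlMat R)ᴴ).trace‖ ≤ 9 * ∏ j, kap n o j := by
  rw [factor R hR, norm_mul, ← Finset.prod_mul_prod_compl (RSupp R), ← mul_assoc]
  have hk2 : 0 ≤ ∏ j ∈ RSupp R, kap n o j := Finset.prod_nonneg fun j _ => kap_nonneg n o j
  apply mul_le_mul
  · refine (list_le n o E hE R hR).trans ?_
    apply mul_le_mul_of_nonneg_right _ hk2
    split_ifs <;> norm_num
  · rw [norm_prod]
    exact Finset.prod_le_prod (fun j _ => norm_nonneg _)
      (fun j _ => (free_trace_le n o E hE j).trans (tau_le_kap n o j))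
  · exact norm_nonneg _
  · positivity

theorem cnt_univ_ge {n N : ℕ} (hnN : n ≤ N) (o : Fin N) : n - 1 ≤ cnt n o Finset.univ := by
  unfold cnt
  have h1 : (Finset.univ.filter fun j : Fin N => j.1 < n ∧ j ≠ o) =
      (Finset.univ.filter fun j : Fin N => j.1 < n).erase o := by
    ext j
    simp [and_comm]
  have h2 : (Finset.univ.filter fun j : Fin N => j.1 < n).card = n := by
    have : (Finset.univ.filter fun j : Fin N => j.1 < n) =
        (Finset.univ : Finset (Fin n)).image (Fin.castLE hnN) := by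
      ext j
      simp only [Finset.mem_filter, Finset.mem_univ, true_and, Finset.mem_image]
      constructor
      · intro h
        exact ⟨⟨j.1, h⟩, by ext; simp⟩
      · rintro ⟨i, rfl⟩
        simp
    rw [this, Finset.card_image_of_injective _ (Fin.castLE_injective hnN)]
    simp
  rw [h1]
  have := Finset.pred_card_le_card_erase (s := Finset.univ.filter fun j : Fin N => j.1 < n) (a := o)
  rwa [h2] at this

theorem trace_expand {N : ℕ} (G ρ : Op N) (F : Bool → Bool → Op N) :
    (Gᴴ * (∑ a : Bool, ∑ b : Bool, cf a b • F a b) * G * ρ).trace =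
      ∑ a : Bool, ∑ b : Bool, cf a b * (F a b * G * ρ * Gᴴ).trace := by
  have h : ∀ X : Op N, (Gᴴ * X * G * ρ).trace = (X * G * ρ * Gᴴ).trace := by
    intro X
    rw [Matrix.mul_assoc, Matrix.mul_assoc, Matrix.trace_mul_comm]
    simp only [Matrix.mul_assoc]
  rw [h]
  simp only [Fintype.sum_bool, Matrix.add_mul, Matrix.smul_mul, Matrix.trace_add,
    Matrix.trace_smul, smul_eq_mul]

theorem depth_two_bound (n N : ℕ) (hnN : n ≤ N) (C : List (Layer N)) (o : Fin N)
    (hC : entDepth C ≤ 2) : |parityCorr n C o| ≤ 100 * (2 : ℝ) ^ (-(n : ℝ) / 4) := by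
  obtain ⟨w, R2, R1, hw, hR2, hR1, hU⟩ := normal_form C hC
  set B : M2 := (w o)ᴴ * Zm * w o with hBdef
  have hwo : w o * (w o)ᴴ = 1 := mul_eq_one_comm.1 (hw o)
  have hZ : Zm * Zm = 1 := by
    unfold Zm
    rw [Matrix.diagonal_mul_diagonal, ← Matrix.diagonal_one]
    congr 1
    funext b
    cases b <;> simp
  have hZH : Zmᴴ = Zm := by
    unfold Zm
    rw [Matrix.diagonal_conjTranspose]
    congr 1
    funext b
    cases b <;> simp
  have hB : Bᴴ * B = 1 := by
    rw [hBdef]
    simp only [Matrix.conjTranspose_mul, Matrix.conjTranspose_conjTranspose, hZH]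
    calc (w o)ᴴ * (Zm * w o) * ((w o)ᴴ * Zm * w o)
        = (w o)ᴴ * (Zm * (w o * (w o)ᴴ) * Zm) * w o := by simp only [Matrix.mul_assoc]
      _ = 1 := by rw [hwo, Matrix.mul_one, hZ, Matrix.mul_one, hw o]
  have hW : (pm w)ᴴ * pm (single o Zm) * pm w = pm (single o B) := by
    rw [pm_conjTranspose, pm_mul, pm_mul]
    congr 1
    funext j
    by_cases hj : j = o
    · subst hj
      simp [single_same, hBdef]
    · simp [single_of_ne _ _ hj, hw j]
  obtain ⟨r, hr⟩ := peel R2 hR2 o B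
  have key : ((parityCorr n C o : ℝ) : ℂ) =
      ∑ a : Bool, ∑ b : Bool, cf a b *
        (pm (r.sw a b (single o B)) * rlMat R1 * pm (rho n) * (rlMat R1)ᴴ).trace := by
    rw [parityCorr_eq_trace hnN, hU]
    have e1 : (pm w * rlMat R2 * rlMat R1)ᴴ * pm (single o Zm) * (pm w * rlMat R2 * rlMat R1) =
        (rlMat R1)ᴴ * ((rlMat R2)ᴴ * ((pm w)ᴴ * pm (single o Zm) * pm w) * rlMat R2) * rlMat R1 := by
      simp only [Matrix.conjTranspose_mul, Matrix.mul_assoc]
    rw [e1, hW, hr, conj_expand]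
    exact trace_expand _ _ _
  have hnorm : |parityCorr n C o| = ‖((parityCorr n C o : ℝ) : ℂ)‖ := by
    rw [Complex.norm_real, Real.norm_eq_abs]
  rw [hnorm, key]
  have hterm : ∀ a b : Bool, ‖cf a b *
      (pm (r.sw a b (single o B)) * rlMat R1 * pm (rho n) * (rlMat R1)ᴴ).trace‖ ≤
      ‖cf a b‖ * (9 * ∏ j, kap n o j) := by
    intro a b
    rw [norm_mul]
    exact mul_le_mul_of_nonneg_left (term_le n o _ (good_sw o r a b B hB) R1 hR1) (norm_nonneg _)
  have hsum : ‖∑ a : Bool, ∑ b : Bool, cf a b *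
      (pm (r.sw a b (single o B)) * rlMat R1 * pm (rho n) * (rlMat R1)ᴴ).trace‖ ≤
      81 * ∏ j, kap n o j := by
    simp only [Fintype.sum_bool]
    have h1 := hterm true true
    have h2 := hterm true false
    have h3 := hterm false true
    have h4 := hterm false false
    have c1 : ‖cf true true‖ = 4 := by simp [cf]; norm_num
    have c2 : ‖cf true false‖ = 2 := by simp [cf]
    have c3 : ‖cf false true‖ = 2 := by simp [cf]
    have c4 : ‖cf false false‖ = 1 := by simp [cf]
    rw [c1] at h1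
    rw [c2] at h2
    rw [c3] at h3
    rw [c4] at h4
    refine (norm_add_le _ _).trans ?_
    have t1 := norm_add_le (cf true true *
      (pm (r.sw true true (single o B)) * rlMat R1 * pm (rho n) * (rlMat R1)ᴴ).trace)
      (cf true false *
      (pm (r.sw true false (single o B)) * rlMat R1 * pm (rho n) * (rlMat R1)ᴴ).trace)
    have t2 := norm_add_le (cf false true *
      (pm (r.sw false true (single o B)) * rlMat R1 * pm (rho n) * (rlMat R1)ᴴ).trace)
      (cf false false *
      (pm (r.sw false false (single o B)) * rlMat R1 * pm (rho n) * (rlMat R1)ᴴ).trace)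
    linarith
  refine hsum.trans ?_
  rw [prod_kap, ← qq_pow]
  have hc := cnt_univ_ge hnN o
  have h1 : qq ^ cnt n o Finset.univ ≤ qq ^ (n - 1) :=
    pow_le_pow_of_le_one qq_pos.le qq_le_one hc
  have h2 : 81 * qq ^ (n - 1) ≤ 100 * qq ^ n := by
    rcases Nat.eq_zero_or_pos n with rfl | hn
    · norm_num
    · have : qq ^ n = qq ^ (n - 1) * qq := by
        rw [← pow_succ]
        congr 1
        omega
      rw [this]
      have hp : 0 ≤ qq ^ (n - 1) := pow_nonneg qq_pos.le _
      have := qq_ge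
      nlinarith
  linarith

end Vale.Agent.P368
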