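import Vale.Agent.P368.Rf

namespace Vale.Agent.P368

open Matrix

theorem oneQ_eq_pm {N : ℕ} (j : Fin N) (u : M2) : oneQ j u = pm (single j u) := by
  ext z z'
  rw [pm_apply, Fintype.prod_eq_mul_prod_compl j]
  have h : ∀ i ∈ ({j} : Finset (Fin N))ᶜ, single j u i (z i) (z' i)
      = if z i = z' i then 1 else 0 := by
    intro i hi
    have hij : i ≠ j := by simpa using hi
    simp [single, Function.update_of_ne hij, Matrix.one_apply]
  rw [Finset.prod_congr rfl h, Finset.prod_ite_zero]
  simp only [oneQ, single, Function.update_self, Finset.prod_const_one, Finset.mem_compl,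
    Finset.mem_singleton]
  split_ifs <;> simp

/-- `1 / sqrt 2` as a complex number -/
noncomputable def isq : ℂ := ((Real.sqrt 2 : ℝ) : ℂ)⁻¹

theorem isq_mul : isq * isq = 1 / 2 := by
  unfold isq
  rw [← mul_inv, ← Complex.ofReal_mul, Real.mul_self_sqrt (by norm_num)]
  norm_num

theorem isq_star : star isq = isq := by
  unfold isq
  simp

theorem isq_conj : (starRingEnd ℂ) isq = isq := isq_star

noncomputable def tofTh {N : ℕ} (b : Fin N) : Fin N → Bool → ℂ := fun j =>
  if j = b then (fun x => if x then -isq else isq) else (fun x => if x then 1 else 0)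

theorem tofTh_unit {N : ℕ} (b j : Fin N) : star (tofTh b j) ⬝ᵥ tofTh b j = 1 := by
  unfold tofTh
  split_ifs
  · simp [dotProduct, isq_conj, isq_mul]
    norm_num
  · simp [dotProduct]

theorem toffoli_eq {N : ℕ} (c : Finset (Fin N)) (b : Fin N) (hb : b ∉ c) :
    ∃ r : Rf N, r.D = insert b c ∧ toffoli c b = r.mat := by
  refine ⟨⟨insert b c, tofTh b, tofTh_unit b⟩, rfl, ?_⟩
  ext z z'
  simp only [Rf.mat, Rf.P, Matrix.sub_apply, Matrix.smul_apply, smul_eq_mul]
  rw [pm_apply, Fintype.prod_eq_mul_prod_compl b]
  have h : ∀ i ∈ ({b} : Finset (Fin N))ᶜ,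
      Rf.loc ⟨insert b c, tofTh b, tofTh_unit b⟩ i (z i) (z' i)
      = if (z i = z' i ∧ (i ∈ c → z' i = true)) then 1 else 0 := by
    intro i hi
    have hib : i ≠ b := by simpa using hi
    by_cases hic : i ∈ c
    · simp only [Rf.loc, Finset.mem_insert, hib, hic, or_true, if_true, proj, tofTh, if_false,
        Matrix.vecMulVec_apply, Pi.star_apply]
      cases z i <;> cases z' i <;> simp
    · simp only [Rf.loc, Finset.mem_insert, hib, hic, or_false, if_false, Matrix.one_apply]
      simp
  rw [Finset.prod_congr rfl h, Finset.prod_ite_zero]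
  have hbb : Rf.loc ⟨insert b c, tofTh b, tofTh_unit b⟩ b (z b) (z' b)
      = if z b = z' b then 1 / 2 else -(1 / 2) := by
    simp only [Rf.loc, Finset.mem_insert, true_or, if_true, proj, tofTh,
        Matrix.vecMulVec_apply, Pi.star_apply]
    cases z b <;> cases z' b <;> simp [isq_conj, isq_mul]
  rw [hbb]
  simp only [toffoli, Finset.prod_const_one, Finset.mem_compl, Finset.mem_singleton,
    Matrix.one_apply]
  by_cases hc : ∀ i ∈ c, z' i = true
  · have hact : tofAct c b z' = Function.update z' b (!z' b) := if_pos hc
    rw [hact]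
    by_cases hoff : ∀ i, i ≠ b → z i = z' i
    · have h1 : ∀ i, ¬ i = b → z i = z' i ∧ (i ∈ c → z' i = true) :=
        fun i hi => ⟨hoff i hi, hc i⟩
      rw [if_pos h1]
      by_cases hzb : z b = z' b
      · have hzz : z = z' := by
          funext i
          by_cases hi : i = b
          · rw [hi, hzb]
          · exact hoff i hi
        have hne : ¬ z = Function.update z' b (!z' b) := by
          intro h
          have := congrFun h b
          rw [Function.update_self, hzb] at this
          cases hh : z' b <;> simp [hh] at this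
        rw [if_neg hne, if_pos hzz, if_pos hzb]
        norm_num
      · have hzz : ¬ z = z' := fun h => hzb (by rw [h])
        have he : z = Function.update z' b (!z' b) := by
          funext i
          by_cases hi : i = b
          · rw [hi, Function.update_self]
            cases hh : z' b <;> cases hh' : z b <;> simp_all
          · rw [Function.update_of_ne hi]
            exact hoff i hi
        rw [if_pos he, if_neg hzz, if_neg hzb]
        norm_num
    · have h1 : ¬ ∀ i, ¬ i = b → z i = z' i ∧ (i ∈ c → z' i = true) :=
        fun h => hoff fun i hi => (h i hi).1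
      have hzz : ¬ z = z' := fun h => hoff fun i _ => by rw [h]
      have hne : ¬ z = Function.update z' b (!z' b) := by
        intro h
        apply hoff
        intro i hi
        rw [h, Function.update_of_ne hi]
      rw [if_neg h1, if_neg hzz, if_neg hne]
      simp
  · have hact : tofAct c b z' = z' := if_neg hc
    rw [hact]
    have h1 : ¬ ∀ i, ¬ i = b → z i = z' i ∧ (i ∈ c → z' i = true) := by
      intro h
      apply hc
      intro i hi
      exact (h i (fun hib => hb (hib ▸ hi))).2 hi
    rw [if_neg h1]
    simp

end Vale.Agent.P368
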