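import Vale.Agent.P368.Gates

namespace Vale.Agent.P368

open Matrix

theorem LU.mul_conj {N : ℕ} {w : Fin N → M2} (hw : LU w) (j : Fin N) : w j * (w j)ᴴ = 1 :=
  mul_eq_one_comm.mp (hw j)

theorem proj_conj (w : M2) (v : Bool → ℂ) : proj (wᴴ *ᵥ v) = wᴴ * proj v * w := by
  unfold proj
  rw [Matrix.mul_vecMulVec, Matrix.vecMulVec_mul, Matrix.star_mulVec, Matrix.conjTranspose_conjTranspose]

theorem Rf.mat_mul_pm {N : ℕ} (r : Rf N) (w : Fin N → M2) (hw : LU w) :
    ∃ r' : Rf N, r'.D = r.D ∧ r.mat * pm w = pm w * r'.mat := by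
  refine ⟨⟨r.D, fun j => (w j)ᴴ *ᵥ r.th j, ?_⟩, rfl, ?_⟩
  · intro j
    rw [Matrix.star_mulVec, Matrix.conjTranspose_conjTranspose, Matrix.dotProduct_mulVec,
      Matrix.vecMul_vecMul, hw.mul_conj j, Matrix.vecMul_one]
    exact r.unit j
  · have h : r.P * pm w = pm w * (Rf.P ⟨r.D, fun j => (w j)ᴴ *ᵥ r.th j, by
        intro j
        rw [Matrix.star_mulVec, Matrix.conjTranspose_conjTranspose, Matrix.dotProduct_mulVec,
          Matrix.vecMul_vecMul, hw.mul_conj j, Matrix.vecMul_one]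
        exact r.unit j⟩) := by
      simp only [Rf.P, pm_mul]
      congr 1
      funext j
      simp only [Rf.loc]
      split_ifs
      · rw [proj_conj, ← mul_assoc, ← mul_assoc, hw.mul_conj j, one_mul]
      · simp
    simp only [Rf.mat, sub_mul, mul_sub, one_mul, mul_one, smul_mul_assoc, mul_smul_comm, h]

theorem rlMat_mul_pm {N : ℕ} (R : List (Rf N)) (w : Fin N → M2) (hw : LU w) :
    ∃ R' : List (Rf N), R'.map Rf.D = R.map Rf.D ∧ rlMat R * pm w = pm w * rlMat R' := by
  induction R with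
  | nil => exact ⟨[], rfl, by simp [rlMat_nil]⟩
  | cons r R ih =>
    obtain ⟨R', h1, h2⟩ := ih
    obtain ⟨r', h3, h4⟩ := r.mat_mul_pm w hw
    refine ⟨r' :: R', by simp [h1, h3], ?_⟩
    rw [rlMat_cons, rlMat_cons, mul_assoc, h2, ← mul_assoc, h4, mul_assoc]

theorem RDisj_iff_map {N : ℕ} (R : List (Rf N)) :
    RDisj R ↔ (R.map Rf.D).Pairwise Disjoint := by
  unfold RDisj
  rw [List.pairwise_map]

theorem LU.mul {N : ℕ} {w w' : Fin N → M2} (hw : LU w) (hw' : LU w') :
    LU (fun j => w j * w' j) := by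
  intro j
  rw [Matrix.conjTranspose_mul, mul_assoc, ← mul_assoc (w j)ᴴ, hw j, one_mul, hw' j]

theorem LU_one {N : ℕ} : LU (fun _ : Fin N => (1 : M2)) := by
  intro j
  simp

theorem LU_single {N : ℕ} (j : Fin N) (u : Matrix.unitaryGroup Bool ℂ) : LU (single j u.1) := by
  intro i
  unfold single
  by_cases h : i = j
  · subst h
    simp only [Function.update_self]
    exact (Matrix.mem_unitaryGroup_iff'.mp u.2)
  · simp [Function.update_of_ne h]

theorem gates_nf {N : ℕ} (gs : List (Gate N))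
    (hd : gs.Pairwise fun g h => Disjoint g.supp h.supp) :
    ∃ (w : Fin N → M2) (R : List (Rf N)), LU w ∧ RDisj R ∧
      (gs.map Gate.mat).prod = pm w * rlMat R ∧
      (∀ s ∈ R, ∃ g ∈ gs, s.D = g.supp) ∧ ((∀ g ∈ gs, ¬ g.IsMulti) → R = []) := by
  induction gs with
  | nil => exact ⟨fun _ => 1, [], LU_one, List.Pairwise.nil, by simp [pm_one, rlMat_nil], by simp,
      fun _ => rfl⟩
  | cons g gs ih =>
    rw [List.pairwise_cons] at hd
    obtain ⟨w, R, h1, h2, h3, h4, h5⟩ := ih hd.2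
    cases g with
    | one j u =>
      refine ⟨fun i => single j u.1 i * w i, R, (LU_single j u).mul h1, h2, ?_, ?_, ?_⟩
      · rw [List.map_cons, List.prod_cons, h3, ← pm_mul, ← mul_assoc]
        simp only [Gate.mat, oneQ_eq_pm]
      · intro s hs
        obtain ⟨g, hg, hg'⟩ := h4 s hs
        exact ⟨g, List.mem_cons_of_mem _ hg, hg'⟩
      · intro h
        exact h5 fun g hg => h g (List.mem_cons_of_mem _ hg)
    | tof c b hc hb =>
      obtain ⟨r, hr1, hr2⟩ := toffoli_eq c b hb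
      obtain ⟨r', hr3, hr4⟩ := r.mat_mul_pm w h1
      refine ⟨w, r' :: R, h1, ?_, ?_, ?_, ?_⟩
      · unfold RDisj
        rw [List.pairwise_cons]
        refine ⟨?_, h2⟩
        intro s hs
        obtain ⟨g, hg, hg'⟩ := h4 s hs
        rw [hr3, hr1, hg']
        exact hd.1 g hg
      · rw [List.map_cons, List.prod_cons, h3, rlMat_cons, ← mul_assoc, ← mul_assoc, ← hr4]
        simp only [Gate.mat, hr2]
      · intro s hs
        rcases List.mem_cons.mp hs with rfl | hs
        · exact ⟨_, List.mem_cons_self, by rw [hr3, hr1]; rfl⟩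
        · obtain ⟨g, hg, hg'⟩ := h4 s hs
          exact ⟨g, List.mem_cons_of_mem _ hg, hg'⟩
      · intro h
        exact absurd trivial (h _ List.mem_cons_self)

theorem layer_nf {N : ℕ} (L : Layer N) :
    ∃ (w : Fin N → M2) (R : List (Rf N)), LU w ∧ RDisj R ∧ L.mat = pm w * rlMat R ∧
      (¬ L.IsEnt → R = []) := by
  obtain ⟨w, R, h1, h2, h3, _, h5⟩ := gates_nf L.gates L.disj
  refine ⟨w, R, h1, h2, h3, fun h => h5 fun g hg hm => h ⟨g, hg, hm⟩⟩

theorem rll_mul_pm {N : ℕ} (Rs : List (List (Rf N))) (hRs : ∀ R ∈ Rs, RDisj R)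
    (w : Fin N → M2) (hw : LU w) :
    ∃ Rs' : List (List (Rf N)), (∀ R ∈ Rs', RDisj R) ∧ Rs'.length = Rs.length ∧
      (Rs.map rlMat).prod * pm w = pm w * (Rs'.map rlMat).prod := by
  induction Rs with
  | nil => exact ⟨[], by simp, rfl, by simp⟩
  | cons R Rs ih =>
    obtain ⟨Rs', h1, h2, h3⟩ := ih fun R hR => hRs R (List.mem_cons_of_mem _ hR)
    obtain ⟨R', h4, h5⟩ := rlMat_mul_pm R w hw
    refine ⟨R' :: Rs', ?_, by simp [h2], ?_⟩
    · intro S hS
      rcases List.mem_cons.mp hS with rfl | hS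
      · rw [RDisj_iff_map, h4, ← RDisj_iff_map]
        exact hRs R List.mem_cons_self
      · exact h1 S hS
    · rw [List.map_cons, List.prod_cons, List.map_cons, List.prod_cons, mul_assoc, h3,
        ← mul_assoc, h5, mul_assoc]

theorem circ_nf {N : ℕ} (C : List (Layer N)) :
    ∃ (w : Fin N → M2) (Rs : List (List (Rf N))), LU w ∧ (∀ R ∈ Rs, RDisj R) ∧
      Rs.length = entDepth C ∧ circMat C = pm w * (Rs.map rlMat).prod := by
  induction C with
  | nil => exact ⟨fun _ => 1, [], LU_one, by simp, by simp [entDepth], by simp [circMat, pm_one]⟩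
  | cons L C ih =>
    obtain ⟨w, Rs, h1, h2, h3, h4⟩ := ih
    obtain ⟨w', R, g1, g2, g3, g4⟩ := layer_nf L
    obtain ⟨Rs', k1, k2, k3⟩ := rll_mul_pm Rs h2 w' g1
    by_cases hL : L.IsEnt
    · refine ⟨fun j => w j * w' j, Rs' ++ [R], h1.mul g1, ?_, ?_, ?_⟩
      · intro S hS
        rcases List.mem_append.mp hS with hS | hS
        · exact k1 S hS
        · rw [List.mem_singleton.mp hS]
          exact g2
      · simp [entDepth, hL, k2, h3]
      · simp only [circMat]
        rw [h4, g3, ← pm_mul, List.map_append, List.prod_append, mul_assoc (pm w),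
          ← mul_assoc _ (pm w'), k3]
        simp [mul_assoc]
    · refine ⟨fun j => w j * w' j, Rs', h1.mul g1, k1, ?_, ?_⟩
      · simp [entDepth, hL, k2, h3]
      · simp only [circMat]
        rw [h4, g3, g4 hL, rlMat_nil, mul_one, ← pm_mul, mul_assoc (pm w), k3, mul_assoc]

theorem normal_form {N : ℕ} (C : List (Layer N)) (hC : entDepth C ≤ 2) :
    ∃ (w : Fin N → M2) (R2 R1 : List (Rf N)), LU w ∧ RDisj R2 ∧ RDisj R1 ∧
      circMat C = pm w * rlMat R2 * rlMat R1 := by
  obtain ⟨w, Rs, h1, h2, h3, h4⟩ := circ_nf C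
  rw [← h3] at hC
  match Rs, h2, h4, hC with
  | [], _, h4, _ =>
    exact ⟨w, [], [], h1, List.Pairwise.nil, List.Pairwise.nil, by simpa [rlMat_nil] using h4⟩
  | [R], h2, h4, _ =>
    exact ⟨w, [], R, h1, List.Pairwise.nil, h2 R (by simp), by simpa [rlMat_nil] using h4⟩
  | [R, R'], h2, h4, _ =>
    exact ⟨w, R, R', h1, h2 R (by simp), h2 R' (by simp), by simpa [mul_assoc] using h4⟩
  | _ :: _ :: _ :: _, _, _, hC => simp at hC

end Vale.Agent.P368
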