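import Vale.Agent.P368.Defs

namespace Vale.Agent.P368

open Matrix

abbrev M2 := Matrix Bool Bool ℂ

def pm {N : ℕ} (E : Fin N → M2) : Op N := fun z z' => ∏ j, E j (z j) (z' j)

theorem pm_apply {N : ℕ} (E : Fin N → M2) (z z' : Cfg N) :
    pm E z z' = ∏ j, E j (z j) (z' j) := rfl

theorem sum_cfg_prod {N : ℕ} (f : Fin N → Bool → ℂ) :
    ∑ z : Cfg N, ∏ j, f j (z j) = ∏ j, ∑ b, f j b := by
  rw [Finset.prod_univ_sum, Fintype.piFinset_univ]

theorem sum_cfg_prod_real {N : ℕ} (f : Fin N → Bool → ℝ) :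
    ∑ z : Cfg N, ∏ j, f j (z j) = ∏ j, ∑ b, f j b := by
  rw [Finset.prod_univ_sum, Fintype.piFinset_univ]

theorem pm_mul {N : ℕ} (E F : Fin N → M2) : pm E * pm F = pm (fun j => E j * F j) := by
  ext z z'
  simp only [Matrix.mul_apply, pm_apply]
  rw [← sum_cfg_prod (fun j b => E j (z j) b * F j b (z' j))]
  simp only [Finset.prod_mul_distrib]

theorem pm_trace {N : ℕ} (E : Fin N → M2) : (pm E).trace = ∏ j, (E j).trace := by
  simp only [Matrix.trace, Matrix.diag_apply, pm_apply]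
  exact sum_cfg_prod (fun j b => E j b b)

theorem pm_one {N : ℕ} : pm (fun _ : Fin N => (1 : M2)) = 1 := by
  ext z z'
  simp only [pm_apply, Matrix.one_apply]
  rw [Finset.prod_ite_zero]
  simp [funext_iff]

theorem pm_conjTranspose {N : ℕ} (E : Fin N → M2) : (pm E)ᴴ = pm (fun j => (E j)ᴴ) := by
  ext z z'
  simp [pm_apply, Matrix.conjTranspose_apply]

theorem pm_diagonal {N : ℕ} (d : Fin N → Bool → ℂ) :
    pm (fun j => Matrix.diagonal (d j)) = Matrix.diagonal (fun z : Cfg N => ∏ j, d j (z j)) := by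
  ext z z'
  simp only [pm_apply, Matrix.diagonal_apply]
  rw [Finset.prod_ite_zero]
  simp [funext_iff]

end Vale.Agent.P368
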