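import Vale.Agent.P368.Pm

namespace Vale.Agent.P368

open Matrix

def proj (v : Bool → ℂ) : M2 := Matrix.vecMulVec v (star v)

structure Rf (N : ℕ) where
  D : Finset (Fin N)
  th : Fin N → Bool → ℂ
  unit : ∀ j, star (th j) ⬝ᵥ th j = 1

def Rf.loc {N : ℕ} (r : Rf N) : Fin N → M2 := fun j => if j ∈ r.D then proj (r.th j) else 1

def Rf.P {N : ℕ} (r : Rf N) : Op N := pm r.loc

def Rf.mat {N : ℕ} (r : Rf N) : Op N := 1 - (2 : ℂ) • r.P

def rlMat {N : ℕ} (R : List (Rf N)) : Op N := (R.map Rf.mat).prod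

def RDisj {N : ℕ} (R : List (Rf N)) : Prop := R.Pairwise fun r s => Disjoint r.D s.D

def RSupp {N : ℕ} (R : List (Rf N)) : Finset (Fin N) := R.foldr (fun r s => r.D ∪ s) ∅

def LU {N : ℕ} (w : Fin N → M2) : Prop := ∀ j, (w j)ᴴ * w j = 1

def IsHI (M : M2) : Prop := Mᴴ = M ∧ M * M = M

def Rf.sw {N : ℕ} (r : Rf N) (a b : Bool) (E : Fin N → M2) : Fin N → M2 :=
  fun j => (if a then r.loc j else 1) * E j * (if b then r.loc j else 1)

def cf (a b : Bool) : ℂ := (if a then -2 else 1) * (if b then -2 else 1)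

def blockC {N : ℕ} (r : Rf N) (E ρ : Fin N → M2) : ℂ :=
  ∑ a : Bool, ∑ b : Bool, cf a b * ∏ j ∈ r.D, (r.sw a b E j * ρ j).trace

def single {N : ℕ} (o : Fin N) (B : M2) : Fin N → M2 := Function.update (fun _ => 1) o B

def Zm : M2 := Matrix.diagonal fun b => if b then -1 else 1

noncomputable def rho (n : ℕ) {N : ℕ} (j : Fin N) : M2 :=
  if j.1 < n then Matrix.diagonal (fun b => if b then -(1 / 2) else 1 / 2)
  else Matrix.diagonal (fun b => if b then 0 else 1)

theorem proj_isHI (v : Bool → ℂ) (hv : star v ⬝ᵥ v = 1) : IsHI (proj v) := by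
  constructor
  · simp [proj, Matrix.conjTranspose_vecMulVec]
  · simp [proj, Matrix.vecMulVec_mul_vecMulVec, hv]

theorem one_isHI : IsHI 1 := by simp [IsHI]

theorem Rf.loc_isHI {N : ℕ} (r : Rf N) (j : Fin N) : IsHI (r.loc j) := by
  unfold Rf.loc
  split_ifs
  · exact proj_isHI _ (r.unit j)
  · exact one_isHI

theorem Rf.P_conjTranspose {N : ℕ} (r : Rf N) : r.Pᴴ = r.P := by
  unfold Rf.P
  rw [pm_conjTranspose]
  congr 1
  funext j
  exact (r.loc_isHI j).1

theorem Rf.P_mul_P {N : ℕ} (r : Rf N) : r.P * r.P = r.P := by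
  unfold Rf.P
  rw [pm_mul]
  congr 1
  funext j
  exact (r.loc_isHI j).2

theorem Rf.mat_conjTranspose {N : ℕ} (r : Rf N) : r.matᴴ = r.mat := by
  unfold Rf.mat
  rw [Matrix.conjTranspose_sub, Matrix.conjTranspose_smul, r.P_conjTranspose]
  simp

theorem Rf.mat_mul_mat {N : ℕ} (r : Rf N) : r.mat * r.mat = 1 := by
  unfold Rf.mat
  have h := r.P_mul_P
  simp only [sub_mul, mul_sub, one_mul, mul_one, smul_mul_assoc, mul_smul_comm, h]
  module

theorem rlMat_nil {N : ℕ} : rlMat ([] : List (Rf N)) = 1 := rfl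

theorem rlMat_cons {N : ℕ} (r : Rf N) (R : List (Rf N)) : rlMat (r :: R) = r.mat * rlMat R := by
  simp [rlMat]

theorem RSupp_nil {N : ℕ} : RSupp ([] : List (Rf N)) = ∅ := rfl

theorem RSupp_cons {N : ℕ} (r : Rf N) (R : List (Rf N)) : RSupp (r :: R) = r.D ∪ RSupp R := rfl

theorem mem_RSupp {N : ℕ} (R : List (Rf N)) (j : Fin N) : j ∈ RSupp R ↔ ∃ r ∈ R, j ∈ r.D := by
  induction R with
  | nil => simp [RSupp_nil]
  | cons r R ih => simp [RSupp_cons, ih]

theorem disjoint_RSupp {N : ℕ} (D : Finset (Fin N)) (R : List (Rf N))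
    (h : ∀ s ∈ R, Disjoint D s.D) : Disjoint D (RSupp R) := by
  rw [Finset.disjoint_left]
  intro j hj hj'
  obtain ⟨s, hs, hjs⟩ := (mem_RSupp R j).1 hj'
  exact (Finset.disjoint_left.1 (h s hs)) hj hjs

theorem RDisj_cons {N : ℕ} (r : Rf N) (R : List (Rf N)) :
    RDisj (r :: R) ↔ (∀ s ∈ R, Disjoint r.D s.D) ∧ RDisj R := by
  simp [RDisj]

theorem Rf.loc_of_mem {N : ℕ} (r : Rf N) {j : Fin N} (h : j ∈ r.D) : r.loc j = proj (r.th j) := by
  simp [Rf.loc, h]

theorem Rf.loc_of_notMem {N : ℕ} (r : Rf N) {j : Fin N} (h : j ∉ r.D) : r.loc j = 1 := by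
  simp [Rf.loc, h]

theorem Rf.sw_of_notMem {N : ℕ} (r : Rf N) (a b : Bool) (E : Fin N → M2) {j : Fin N}
    (h : j ∉ r.D) : r.sw a b E j = E j := by
  simp [Rf.sw, r.loc_of_notMem h]

theorem single_same {N : ℕ} (o : Fin N) (B : M2) : single o B o = B := by
  simp [single]

theorem single_of_ne {N : ℕ} (o : Fin N) (B : M2) {j : Fin N} (h : j ≠ o) : single o B j = 1 := by
  simp [single, h]

theorem conj_expand {N : ℕ} (r : Rf N) (E : Fin N → M2) :
    r.mat * pm E * r.mat = ∑ a : Bool, ∑ b : Bool, cf a b • pm (r.sw a b E) := by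
  have h1 : pm (r.sw true true E) = r.P * pm E * r.P := by
    simp only [Rf.P, pm_mul]
    congr 1
  have h2 : pm (r.sw true false E) = r.P * pm E := by
    simp only [Rf.P, pm_mul]
    congr 1
    funext j
    simp [Rf.sw]
  have h3 : pm (r.sw false true E) = pm E * r.P := by
    simp only [Rf.P, pm_mul]
    congr 1
    funext j
    simp [Rf.sw]
  have h4 : pm (r.sw false false E) = pm E := by
    congr 1
    funext j
    simp [Rf.sw]
  simp only [Fintype.sum_bool, h1, h2, h3, h4, cf, Rf.mat]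
  simp only [sub_mul, mul_sub, one_mul, mul_one, smul_mul_assoc, mul_smul_comm, if_true,
    Bool.false_eq_true, if_false]
  module

end Vale.Agent.P368
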