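import Vale.Agent.P368.Final

namespace Vale.Agent.P368

open Matrix

theorem isU_mul {N : ℕ} {A B : Op N} (hA : Aᴴ * A = 1) (hB : Bᴴ * B = 1) :
    (A * B)ᴴ * (A * B) = 1 := by
  rw [Matrix.conjTranspose_mul, Matrix.mul_assoc, ← Matrix.mul_assoc Aᴴ, hA, Matrix.one_mul, hB]

theorem isU_pm {N : ℕ} (w : Fin N → M2) (hw : LU w) : (pm w)ᴴ * pm w = 1 := by
  rw [pm_conjTranspose, pm_mul]
  have : (fun j => (w j)ᴴ * w j) = fun _ : Fin N => (1 : M2) := funext hw
  rw [this, pm_one]

theorem isU_rlMat {N : ℕ} (R : List (Rf N)) : (rlMat R)ᴴ * rlMat R = 1 := by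
  induction R with
  | nil => simp [rlMat_nil]
  | cons r R ih =>
    rw [rlMat_cons]
    exact isU_mul (by rw [Rf.mat_conjTranspose, Rf.mat_mul_mat]) ih

theorem isU_rll {N : ℕ} (Rs : List (List (Rf N))) :
    ((Rs.map rlMat).prod)ᴴ * (Rs.map rlMat).prod = 1 := by
  induction Rs with
  | nil => simp
  | cons R Rs ih =>
    rw [List.map_cons, List.prod_cons]
    exact isU_mul (isU_rlMat R) ih

theorem isU_circMat {N : ℕ} (C : List (Layer N)) : (circMat C)ᴴ * circMat C = 1 := by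
  obtain ⟨w, Rs, h1, _, _, h4⟩ := circ_nf C
  rw [h4]
  exact isU_mul (isU_pm w h1) (isU_rll Rs)

theorem col_norm {N : ℕ} (C : List (Layer N)) (w : Cfg N) :
    ∑ z : Cfg N, ‖circMat C z w‖ ^ 2 = 1 := by
  have h := congrFun (congrFun (isU_circMat C) w) w
  rw [Matrix.mul_apply, Matrix.one_apply_eq] at h
  have h2 : ∀ z : Cfg N, (circMat C)ᴴ w z * circMat C z w = ((‖circMat C z w‖ ^ 2 : ℝ) : ℂ) := by
    intro z
    rw [Matrix.conjTranspose_apply, Complex.star_def, Complex.conj_mul']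
    push_cast
    rfl
  rw [Finset.sum_congr rfl (fun z _ => h2 z), ← Complex.ofReal_sum] at h
  exact_mod_cast h

theorem outProb_add {n N : ℕ} (C : List (Layer N)) (o : Fin N) (x : Fin n → Bool) (v : Bool) :
    outProb C o x v + outProb C o x (!v) = 1 := by
  unfold outProb
  rw [← Finset.sum_add_distrib, ← col_norm C (initCfg x)]
  apply Finset.sum_congr rfl
  intro z _
  cases hz : z o <;> cases v <;> simp

end Vale.Agent.P368
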